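import Vale.Agent.P246.T.Imp

/-! # P246, disproof: the universal covering of a space homotopy equivalent to `X`
(pull back of a simply connected quotient covering along a homotopy equivalence). -/

namespace Vale.Agent.P246.Dis.H140

open Topology CategoryTheory

section

variable {X Y : Type} [TopologicalSpace X] [TopologicalSpace Y]

/-- A homotopy equivalence induces an injection on homotopy classes of paths. -/
theorem htpy_of_map (h : ContinuousMap.HomotopyEquiv Y X) {a b : Y} (γ γ' : Path a b)
    (hγ : (γ.map h.toFun.continuous).Homotopic (γ'.map h.toFun.continuous)) :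
    γ.Homotopic γ' := by
  have hf : (FundamentalGroupoid.map h.toFun).Faithful :=
    (FundamentalGroupoidFunctor.equivOfHomotopyEquiv h).faithful_functor
  have h1 : (FundamentalGroupoid.map h.toFun).map
      (X := (⟨a⟩ : FundamentalGroupoid Y)) (Y := ⟨b⟩) (Path.Homotopic.Quotient.mk γ) =
      (FundamentalGroupoid.map h.toFun).map
      (X := (⟨a⟩ : FundamentalGroupoid Y)) (Y := ⟨b⟩) (Path.Homotopic.Quotient.mk γ') := by
    exact Path.Homotopic.Quotient.eq.2 hγ
  exact Path.Homotopic.Quotient.eq.1 (hf.map_injective h1)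

/-- A homotopy equivalence induces a surjection on homotopy classes of paths. -/
theorem exists_map (h : ContinuousMap.HomotopyEquiv Y X) {a b : Y}
    (δ : Path (h.toFun a) (h.toFun b)) :
    ∃ γ : Path a b, (γ.map h.toFun.continuous).Homotopic δ := by
  have hf : (FundamentalGroupoid.map h.toFun).Full :=
    (FundamentalGroupoidFunctor.equivOfHomotopyEquiv h).full_functor
  obtain ⟨g, hg⟩ := hf.map_surjective
      (X := (⟨a⟩ : FundamentalGroupoid Y)) (Y := ⟨b⟩) (Path.Homotopic.Quotient.mk δ)
  obtain ⟨γ, rfl⟩ := Path.Homotopic.Quotient.mk_surjective g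
  exact ⟨γ, Path.Homotopic.Quotient.eq.1 hg⟩

end

section

variable (G : Type) {X Y E : Type} [TopologicalSpace X] [TopologicalSpace Y] [TopologicalSpace E]

/-- The pull back of `p : E → X` along `f : Y → X`. -/
def PB (_ : Type) (f : Y → X) (p : E → X) : Type := {z : Y × E // f z.1 = p z.2}

instance (f : Y → X) (p : E → X) : TopologicalSpace (PB G f p) :=
  inferInstanceAs (TopologicalSpace {z : Y × E // f z.1 = p z.2})

variable {G}

/-- the projection to `Y` -/
def PB.q (f : Y → X) (p : E → X) : C(PB G f p, Y) :=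
  ⟨fun z => z.1.1, continuous_fst.comp continuous_subtype_val⟩

/-- the projection to `E` -/
def PB.r (f : Y → X) (p : E → X) : C(PB G f p, E) :=
  ⟨fun z => z.1.2, continuous_snd.comp continuous_subtype_val⟩

omit [TopologicalSpace X] in
theorem PB.comm (f : Y → X) (p : E → X) (z : PB G f p) : f (PB.q f p z) = p (PB.r f p z) := z.2

/-- A quotient covering pulls back to a quotient covering, for the action of `G` on the second
coordinate. -/
theorem PB.exists_action [Group G] [MulAction G E] [ContinuousConstSMul G E] (f : C(Y, X)) (p : C(E, X))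
    (hp : IsQuotientCoveringMap p G) :
    ∃ (_ : MulAction G (PB G f p)), (∀ (g : G) (z : PB G f p), PB.r f p (g • z) = g • PB.r f p z) ∧
      ContinuousConstSMul G (PB G f p) ∧ IsQuotientCoveringMap (PB.q (G := G) f p) G := by
  let act : MulAction G (PB G f p) :=
    { smul := fun g z => ⟨(z.1.1, g • z.1.2), by
        change f z.1.1 = p (g • z.1.2)
        rw [hp.map_smul]; exact z.2⟩
      one_smul := fun z => Subtype.ext (Prod.ext rfl (one_smul G z.1.2))
      mul_smul := fun g h z => Subtype.ext (Prod.ext rfl (mul_smul g h z.1.2)) }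
  have hval : ∀ (g : G) (z : PB G f p), (g • z).1 = (z.1.1, g • z.1.2) := fun _ _ => rfl
  have hcc : ContinuousConstSMul G (PB G f p) := by
    refine ⟨fun g => ?_⟩
    refine Continuous.subtype_mk ?_ _
    exact ((continuous_fst.comp continuous_subtype_val)).prodMk
      ((continuous_const_smul g).comp (continuous_snd.comp continuous_subtype_val))
  refine ⟨act, fun _ _ => rfl, hcc, ?_⟩
  have hopen : IsOpenMap (PB.q (G := G) f p) := by
    rw [isOpenMap_iff_nhds_le]
    intro z s hs
    rw [Filter.mem_map] at hs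
    obtain ⟨u, hu, hus⟩ := mem_nhds_subtype _ _ _ |>.1 hs
    obtain ⟨V, hV, U, hU, hVU⟩ := mem_nhds_prod_iff.1 hu
    have h1 : p '' U ∈ 𝓝 (p z.1.2) := hp.isOpenQuotientMap.isOpenMap.image_mem_nhds hU
    have h2 : f ⁻¹' (p '' U) ∈ 𝓝 z.1.1 := by
      refine f.continuous.continuousAt ?_
      rw [z.2]; exact h1
    filter_upwards [hV, h2] with y hy1 hy2
    obtain ⟨e, he, hpe⟩ := hy2
    exact hus (a := ⟨(y, e), hpe.symm⟩) (hVU ⟨hy1, he⟩)
  refine (isQuotientCoveringMap_iff _ _).2 ⟨?_, hcc, ?_, ?_⟩
  · refine hopen.isQuotientMap (PB.q (G := G) f p).continuous ?_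
    intro y
    obtain ⟨e, he⟩ := hp.surjective (f y)
    exact ⟨⟨(y, e), he.symm⟩, rfl⟩
  · intro z z'
    constructor
    · intro h
      have h1 : z.1.1 = z'.1.1 := h
      have h2 : p z.1.2 = p z'.1.2 := by rw [← z.2, ← z'.2, h1]
      obtain ⟨g, hg⟩ := hp.apply_eq_iff_mem_orbit.1 h2
      exact ⟨g, Subtype.ext (Prod.ext h1.symm hg)⟩
    · rintro ⟨g, rfl⟩
      rfl
  · intro z
    obtain ⟨U, hU, hU'⟩ := hp.disjoint z.1.2
    refine ⟨PB.r f p ⁻¹' U, (PB.r f p).continuous.continuousAt hU, fun g hg => ?_⟩
    refine hU' g ?_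
    obtain ⟨_, ⟨w, hw, rfl⟩, hw'⟩ := hg
    exact ⟨_, ⟨_, hw, rfl⟩, hw'⟩

/-- The pull back of a simply connected covering along a homotopy equivalence is simply
connected. -/
theorem PB.simplyConnected [SimplyConnectedSpace E] (h : ContinuousMap.HomotopyEquiv Y X)
    (p : C(E, X)) (hp : IsCoveringMap p) (hs : Function.Surjective p)
    (hq : IsCoveringMap (PB.q (G := G) h.toFun p)) : SimplyConnectedSpace (PB G h.toFun p) := by
  set f : C(Y, X) := h.toFun with hf
  rw [simply_connected_iff_paths_homotopic']
  constructor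
  · have hne : Nonempty (PB G f p) := by
      obtain ⟨e⟩ : Nonempty E := inferInstance
      obtain ⟨e', he'⟩ := hs (f (h.invFun (p e)))
      exact ⟨⟨(h.invFun (p e), e'), he'.symm⟩⟩
    refine ⟨hne, fun z z' => ?_⟩
    obtain ⟨δ⟩ : Joined z.1.2 z'.1.2 := PathConnectedSpace.joined _ _
    obtain ⟨γ, ⟨hγ⟩⟩ := exists_map h ((δ.map p.continuous).cast z.2 z'.2)
    have hst : (γ.map f.continuous) 0 = p z.1.2 := by
      rw [Path.source]; exact z.2
    have hst' : (δ.map p.continuous).toContinuousMap 0 = p z.1.2 := by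
      simp
    have h1 : hp.liftPath (γ.map f.continuous).toContinuousMap z.1.2 hst 1 = z'.1.2 := by
      rw [hp.liftPath_apply_one_eq_of_homotopicRel (γ₁ := (δ.map p.continuous).toContinuousMap)
        ⟨hγ⟩ z.1.2 hst hst']
      have h2 : δ.toContinuousMap = hp.liftPath (δ.map p.continuous).toContinuousMap z.1.2 hst' := by
        rw [hp.eq_liftPath_iff']
        exact ⟨rfl, δ.source⟩
      rw [← h2]
      exact δ.target
    have h3 := hp.liftPath_lifts (γ.map f.continuous).toContinuousMap z.1.2 hst
    refine ⟨⟨⟨fun t => ⟨(γ t, hp.liftPath (γ.map f.continuous).toContinuousMap z.1.2 hst t), ?_⟩,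
      ?_⟩, ?_, ?_⟩⟩
    · exact (congrFun h3 t).symm
    · exact Continuous.subtype_mk (γ.continuous.prodMk (ContinuousMap.continuous _)) _
    · refine Subtype.ext (Prod.ext ?_ ?_)
      · exact γ.source
      · exact hp.liftPath_zero _ _ _
    · refine Subtype.ext (Prod.ext ?_ ?_)
      · exact γ.target
      · exact h1
  · intro z z' a b
    have h1 : ((a.map (PB.q (G := G) f p).continuous).map f.continuous).Homotopic
        ((b.map (PB.q (G := G) f p).continuous).map f.continuous) := by
      have h2 : (a.map (PB.r (G := G) f p).continuous).Homotopic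
        (b.map (PB.r (G := G) f p).continuous) := SimplyConnectedSpace.paths_homotopic _ _
      have h3 := h2.map p
      have h4 : ∀ c : Path z z', (c.map (PB.q (G := G) f p).continuous).map f.continuous =
          (((c.map (PB.r (G := G) f p).continuous).map p.continuous)).cast z.2 z'.2 := by
        intro c
        ext t
        exact (c t).2
      rw [h4, h4]
      obtain ⟨H⟩ := h3
      exact ⟨H.cast (by ext; rfl) (by ext; rfl)⟩
    have h5 := htpy_of_map h _ _ h1
    have h6 := hq.injective_path_homotopic_map z z' (a₁ := Path.Homotopic.Quotient.mk a)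
      (a₂ := Path.Homotopic.Quotient.mk b) (Path.Homotopic.Quotient.eq.2 h5)
    exact Path.Homotopic.Quotient.eq.1 h6

end

/-- A space homotopy equivalent to the base of a simply connected quotient covering with group
`G` is the base of a simply connected quotient covering with group `G`. -/
theorem exists_cover_of_htpyEquiv {G X E Y : Type} [Group G] [TopologicalSpace X]
    [TopologicalSpace E] [MulAction G E] [ContinuousConstSMul G E] [SimplyConnectedSpace E]
    (p : C(E, X)) (hp : IsQuotientCoveringMap p G) [TopologicalSpace Y]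
    (h : ContinuousMap.HomotopyEquiv Y X) :
    ∃ (F : Type) (_ : TopologicalSpace F) (_ : MulAction G F) (_ : ContinuousConstSMul G F)
      (q : C(F, Y)) (r : C(F, E)), SimplyConnectedSpace F ∧ IsQuotientCoveringMap q G ∧
      (∀ (g : G) z, r (g • z) = g • r z) ∧ ∀ z, h.toFun (q z) = p (r z) := by
  obtain ⟨act, h1, h2, h3⟩ := PB.exists_action h.toFun p hp
  refine ⟨PB G h.toFun p, inferInstance, act, h2, PB.q h.toFun p, PB.r h.toFun p, ?_, h3, h1,
    PB.comm _ _⟩
  exact PB.simplyConnected h p hp.isCoveringMap hp.surjective h3.isCoveringMap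

end Vale.Agent.P246.Dis.H140
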